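import Mathlib

/-!
# P013: Jacobsthal's function, sieving by a product and a union bound
-/

namespace Vale.Agent.P013

open Finset

/-- Jacobsthal's function: the least positive `m` such that each `m` consecutive integers contain
an integer coprime to `n`. -/
noncomputable def jac (n : ℕ) : ℕ :=
  sInf {m : ℕ | 0 < m ∧ ∀ a : ℤ, ∃ x : ℤ, a ≤ x ∧ x < a + m ∧ IsCoprime x (n : ℤ)}

theorem card_block (P m a : ℕ) :
    m * P.totient ≤ #{x ∈ Ico a (a + m * P) | P.Coprime x} := by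
  induction m with
  | zero => simp
  | succ m ih =>
    have h1 : Ico a (a + (m + 1) * P) = Ico a (a + m * P) ∪ Ico (a + m * P) (a + m * P + P) := by
      rw [Ico_union_Ico_eq_Ico (by omega) (by omega)]
      congr 1
      ring
    rw [h1, filter_union, card_union_of_disjoint, Nat.filter_coprime_Ico_eq_totient]
    · nlinarith
    · exact (Ico_disjoint_Ico_consecutive _ _ _).mono (filter_subset _ _) (filter_subset _ _)

theorem card_mult (P m a p : ℕ) (hP : 0 < P) (hp : 0 < p) :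
    (#{x ∈ Ico a (a + m * P) | P.Coprime x ∧ p ∣ x} : ℝ) ≤ P.totient * ((m : ℝ) / p + 3) := by
  have h1 : #{x ∈ Ico a (a + m * P) | P.Coprime x ∧ p ∣ x} ≤
      #{y ∈ Ico (a / p) (a / p + (m * P / p + 2)) | P.Coprime y} := by
    refine card_le_card_of_injOn (fun x => x / p) ?_ ?_
    · intro x hx
      rw [mem_coe, mem_filter, mem_Ico] at hx
      obtain ⟨⟨hx1, hx2⟩, hx3, hx4⟩ := hx
      rw [mem_coe, mem_filter, mem_Ico]
      obtain ⟨y, rfl⟩ := hx4
      beta_reduce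
      rw [Nat.mul_div_cancel_left y hp]
      refine ⟨⟨?_, ?_⟩, Nat.Coprime.coprime_mul_left_right hx3⟩
      · exact (Nat.div_le_iff_le_mul_add_pred hp).2 (by nlinarith)
      · by_contra hcon
        push Not at hcon
        have e1 := Nat.div_add_mod a p
        have e2 := Nat.div_add_mod (m * P) p
        have e3 := Nat.mod_lt a hp
        have e4 := Nat.mod_lt (m * P) hp
        have e5 : p * (a / p + (m * P / p + 2)) ≤ p * y := Nat.mul_le_mul_left p hcon
        nlinarith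
    · intro x hx y hy hxy
      rw [mem_coe, mem_filter] at hx hy
      have hxy' : x / p = y / p := hxy
      rw [← Nat.div_mul_cancel hx.2.2, ← Nat.div_mul_cancel hy.2.2, hxy']
  have h2 := Nat.Ico_filter_coprime_le (a / p) (m * P / p + 2) hP.ne'
  have h3 : (((m * P / p + 2) / P + 1 : ℕ) : ℝ) ≤ (m : ℝ) / p + 3 := by
    have hP' : (0 : ℝ) < P := by exact_mod_cast hP
    have hP1 : (1 : ℝ) ≤ P := by exact_mod_cast hP
    have hp' : (0 : ℝ) < p := by exact_mod_cast hp
    have e1 : (((m * P / p + 2) / P : ℕ) : ℝ) ≤ ((m * P / p + 2 : ℕ) : ℝ) / P := Nat.cast_div_le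
    have e2 : ((m * P / p : ℕ) : ℝ) ≤ ((m * P : ℕ) : ℝ) / p := Nat.cast_div_le
    push_cast at e1 e2 ⊢
    have e3 : (((m * P / p : ℕ) : ℝ) + 2) / P ≤ ((m : ℝ) * P / p + 2) / P := by gcongr
    have e4 : ((m : ℝ) * P / p + 2) / P = m / p + 2 / P := by field_simp
    have e5 : (2 : ℝ) / P ≤ 2 := div_le_self (by norm_num) hP1
    linarith
  have h4 : (#{x ∈ Ico a (a + m * P) | P.Coprime x ∧ p ∣ x} : ℝ) ≤
      ((P.totient * ((m * P / p + 2) / P + 1) : ℕ) : ℝ) := by exact_mod_cast h1.trans h2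
  rw [Nat.cast_mul] at h4
  exact h4.trans (mul_le_mul_of_nonneg_left h3 (Nat.cast_nonneg _))

theorem exists_nat (n : ℕ) (hn : 0 < n) (D : Finset ℕ) (hD : D ⊆ n.primeFactors) (m : ℕ)
    (hm : 3 * (#(n.primeFactors \ D) : ℝ) <
      m * (1 - ∑ p ∈ n.primeFactors \ D, 1 / (p : ℝ))) (a : ℕ) :
    ∃ x, a ≤ x ∧ x < a + m * ∏ p ∈ D, p ∧ n.Coprime x := by
  classical
  set P := ∏ p ∈ D, p with hPdef
  have hprime : ∀ p ∈ D, p.Prime := fun p hp => Nat.prime_of_mem_primeFactors (hD hp)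
  have hP : 0 < P := Finset.prod_pos fun p hp => (hprime p hp).pos
  by_contra hcon
  push Not at hcon
  have hsub : {x ∈ Ico a (a + m * P) | P.Coprime x} ⊆
      (n.primeFactors \ D).biUnion fun p => {x ∈ Ico a (a + m * P) | P.Coprime x ∧ p ∣ x} := by
    intro x hx
    rw [mem_filter, mem_Ico] at hx
    have h1 : ¬ n.Coprime x := hcon x hx.1.1 hx.1.2
    rw [Nat.Prime.not_coprime_iff_dvd] at h1
    obtain ⟨q, hq, hqn, hqx⟩ := h1
    have hqn' : q ∈ n.primeFactors := Nat.mem_primeFactors.2 ⟨hq, hqn, hn.ne'⟩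
    have hqD : q ∉ D := by
      intro hqD
      have h2 : q ∣ P := Finset.dvd_prod_of_mem _ hqD
      exact Nat.not_coprime_of_dvd_of_dvd hq.one_lt h2 hqx hx.2
    rw [mem_biUnion]
    exact ⟨q, mem_sdiff.2 ⟨hqn', hqD⟩, by rw [mem_filter, mem_Ico]; exact ⟨hx.1, hx.2, hqx⟩⟩
  have h1 := (card_block P m a).trans ((card_le_card hsub).trans card_biUnion_le)
  have h2 : ((m * P.totient : ℕ) : ℝ) ≤
      ∑ p ∈ n.primeFactors \ D, (P.totient : ℝ) * ((m : ℝ) / p + 3) := by
    have h1' := (Nat.cast_le (α := ℝ)).2 h1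
    refine h1'.trans ?_
    rw [Nat.cast_sum]
    refine Finset.sum_le_sum fun p hp => ?_
    exact card_mult P m a p hP
      (Nat.prime_of_mem_primeFactors (mem_sdiff.1 hp).1).pos
  have h3 : ∑ p ∈ n.primeFactors \ D, (P.totient : ℝ) * ((m : ℝ) / p + 3) =
      P.totient * (m * (∑ p ∈ n.primeFactors \ D, 1 / (p : ℝ)) +
        3 * (#(n.primeFactors \ D) : ℝ)) := by
    rw [← Finset.mul_sum, Finset.sum_add_distrib, Finset.mul_sum, Finset.sum_const, nsmul_eq_mul]
    congr 2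
    · exact Finset.sum_congr rfl fun p _ => by ring
    · ring
  rw [h3] at h2
  push_cast at h2
  have h4 : (0 : ℝ) < P.totient := by exact_mod_cast Nat.totient_pos.2 hP
  have h5 : (m : ℝ) ≤ m * (∑ p ∈ n.primeFactors \ D, 1 / (p : ℝ)) +
        3 * (#(n.primeFactors \ D) : ℝ) := by
    have : (P.totient : ℝ) * m ≤ P.totient * (m * (∑ p ∈ n.primeFactors \ D, 1 / (p : ℝ)) +
        3 * (#(n.primeFactors \ D) : ℝ)) := by linarith
    exact le_of_mul_le_mul_left this h4
  linarith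

theorem jac_le (n : ℕ) (hn : 0 < n) (D : Finset ℕ) (hD : D ⊆ n.primeFactors) (m : ℕ) (hm0 : 0 < m)
    (hm : 3 * (#(n.primeFactors \ D) : ℝ) <
      m * (1 - ∑ p ∈ n.primeFactors \ D, 1 / (p : ℝ))) :
    jac n ≤ m * ∏ p ∈ D, p := by
  refine Nat.sInf_le ⟨?_, fun a => ?_⟩
  · exact Nat.mul_pos hm0 (Finset.prod_pos fun p hp => (Nat.prime_of_mem_primeFactors (hD hp)).pos)
  · have hn' : (0 : ℤ) < n := by exact_mod_cast hn
    obtain ⟨x, hx1, hx2, hx3⟩ := exists_nat n hn D hD m hm (a % n).toNat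
    have h0 : ((a % n).toNat : ℤ) = a % n := Int.toNat_of_nonneg (Int.emod_nonneg _ hn'.ne')
    have h1 := Int.emod_add_mul_ediv a n
    refine ⟨x + n * (a / n), ?_, ?_, ?_⟩
    · have : ((a % n).toNat : ℤ) ≤ x := by exact_mod_cast hx1
      linarith
    · have : (x : ℤ) < (a % n).toNat + ((m * ∏ p ∈ D, p : ℕ) : ℤ) := by exact_mod_cast hx2
      linarith
    · have h2 : IsCoprime (n : ℤ) (x : ℤ) := Nat.isCoprime_iff_coprime.2 hx3
      exact (IsCoprime.add_mul_left_left h2.symm (a / n))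

end Vale.Agent.P013
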