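import Mathlib

/-! # P013: linear bounds for Jacobsthal's function -/

namespace Vale.Agent.P013

/-- Jacobsthal's function: the least positive `m` such that every set of `m` consecutive integers
contains an integer coprime to `n` -/
noncomputable def jacobsthal (n : ℕ) : ℕ :=
  sInf {m : ℕ | 0 < m ∧ ∀ a : ℤ, ∃ x : ℤ, a ≤ x ∧ x < a + m ∧ IsCoprime x (n : ℤ)}

theorem card_dvd_le {p : ℕ} (hp : p.Prime) {M : ℤ} (hpM : ¬ (p : ℤ) ∣ M) (x : ℤ) (N : ℕ) :
    ((Finset.range N).filter fun i : ℕ => (p : ℤ) ∣ x + i * M).card ≤ N / p + 1 := by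
  have h : ∀ i ∈ (Finset.range N).filter fun i : ℕ => (p : ℤ) ∣ x + i * M,
      i / p ∈ Finset.range (N / p + 1) := by
    intro i hi
    rw [Finset.mem_filter, Finset.mem_range] at hi
    rw [Finset.mem_range]
    exact Nat.lt_succ_of_le (Nat.div_le_div_right hi.1.le)
  refine (Finset.card_le_card_of_injOn (fun i => i / p) h ?_).trans (by rw [Finset.card_range])
  intro i hi i' hi' hii
  have hi := (Finset.mem_filter.1 (Finset.mem_coe.1 hi)).2
  have hi' := (Finset.mem_filter.1 (Finset.mem_coe.1 hi')).2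
  have h1 : (p : ℤ) ∣ ((i : ℤ) - i') * M := by
    have h2 := dvd_sub hi hi'
    have h3 : x + i * M - (x + i' * M) = ((i : ℤ) - i') * M := by ring
    rwa [h3] at h2
  have hpI : Prime (p : ℤ) := Nat.prime_iff_prime_int.1 hp
  have h4 : (p : ℤ) ∣ (i : ℤ) - i' := (hpI.dvd_or_dvd h1).resolve_right hpM
  have h5 : i % p = i' % p := by
    have h6 : (i' : ℤ) ≡ i [ZMOD p] := (Int.modEq_iff_dvd).2 h4
    exact ((Int.natCast_modEq_iff).1 h6).symm
  have h7 : i / p = i' / p := hii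
  rw [← Nat.div_add_mod i p, ← Nat.div_add_mod i' p, h5, h7]

/-- in each interval of length `M N` there is an integer coprime to `n` -/
theorem exists_coprime {n : ℕ} (hn : n ≠ 0) {S : Finset ℕ} (hS : S ⊆ n.primeFactors) {N : ℕ}
    (hN : (N : ℝ) * ∑ p ∈ n.primeFactors \ S, (1 : ℝ) / p + (n.primeFactors \ S).card < N)
    (a : ℤ) : ∃ x : ℤ, a ≤ x ∧ x < a + ((∏ p ∈ S, p) * N : ℕ) ∧ IsCoprime x (n : ℤ) := by
  classical
  set M : ℕ := ∏ p ∈ S, p with hM
  have hMpos : 0 < M := Finset.prod_pos fun p hp => (Nat.prime_of_mem_primeFactors (hS hp)).pos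
  -- the first integer `≥ a` congruent to one modulo `M`
  obtain ⟨x₀, hx1, hx2, hx3⟩ : ∃ x₀ : ℤ, a ≤ x₀ ∧ x₀ < a + M ∧ (M : ℤ) ∣ x₀ - 1 := by
    refine ⟨a + (1 - a) % M, ?_, ?_, ?_⟩
    · have := Int.emod_nonneg (1 - a) (by omega : (M : ℤ) ≠ 0)
      omega
    · have := Int.emod_lt_of_pos (1 - a) (by omega : (0 : ℤ) < M)
      omega
    · have h1 := Int.emod_add_mul_ediv (1 - a) M
      refine ⟨-((1 - a) / M), ?_⟩
      linarith
  set T := n.primeFactors \ S with hT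
  -- bad indices
  have hbad : ((Finset.range N).filter fun i : ℕ => ∃ p ∈ T, (p : ℤ) ∣ x₀ + i * M).card < N := by
    have h1 : (Finset.range N).filter (fun i : ℕ => ∃ p ∈ T, (p : ℤ) ∣ x₀ + i * M) ⊆
        T.biUnion fun p => (Finset.range N).filter fun i : ℕ => (p : ℤ) ∣ x₀ + i * M := by
      intro i hi
      rw [Finset.mem_filter] at hi
      obtain ⟨p, hp, hdvd⟩ := hi.2
      exact Finset.mem_biUnion.2 ⟨p, hp, Finset.mem_filter.2 ⟨hi.1, hdvd⟩⟩
    have h2 : ((Finset.range N).filter fun i : ℕ => ∃ p ∈ T, (p : ℤ) ∣ x₀ + i * M).card ≤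
        ∑ p ∈ T, (N / p + 1) := by
      refine (Finset.card_le_card h1).trans (Finset.card_biUnion_le.trans ?_)
      refine Finset.sum_le_sum fun p hp => ?_
      rw [hT, Finset.mem_sdiff] at hp
      have hpp := Nat.prime_of_mem_primeFactors hp.1
      apply card_dvd_le hpp
      intro hdvd
      have h3 : p ∣ M := by exact_mod_cast hdvd
      rw [hM, hpp.prime.dvd_finsetProd_iff] at h3
      obtain ⟨q, hq, hpq⟩ := h3
      have hqq := Nat.prime_of_mem_primeFactors (hS hq)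
      rw [(Nat.prime_dvd_prime_iff_eq hpp hqq).1 hpq] at hp
      exact hp.2 hq
    have h4 : ((∑ p ∈ T, (N / p + 1) : ℕ) : ℝ) ≤ (N : ℝ) * ∑ p ∈ T, (1 : ℝ) / p + T.card := by
      push_cast
      rw [Finset.sum_add_distrib, Finset.mul_sum, Finset.sum_const, nsmul_eq_mul, mul_one]
      gcongr with p _
      rw [mul_one_div]
      exact Nat.cast_div_le
    have h5 : (((Finset.range N).filter
        fun i : ℕ => ∃ p ∈ T, (p : ℤ) ∣ x₀ + i * M).card : ℝ) < N :=
      lt_of_le_of_lt ((Nat.cast_le.2 h2).trans h4) hN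
    exact_mod_cast h5
  obtain ⟨i, hi, hgood⟩ : ∃ i ∈ Finset.range N, ¬ ∃ p ∈ T, (p : ℤ) ∣ x₀ + i * M := by
    by_contra hcon
    push Not at hcon
    rw [Finset.filter_true_of_mem (fun i hi => by
      obtain ⟨p, hp, hd⟩ := hcon i hi
      exact ⟨p, hp, hd⟩), Finset.card_range] at hbad
    exact lt_irrefl _ hbad
  rw [Finset.mem_range] at hi
  refine ⟨x₀ + i * M, ?_, ?_, ?_⟩
  · have : (0 : ℤ) ≤ i * M := by positivity
    linarith
  · push_cast
    have h1 : ((i : ℤ) + 1) * M ≤ N * M := by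
      apply mul_le_mul_of_nonneg_right _ (by positivity)
      omega
    linarith
  · rw [Int.isCoprime_iff_gcd_eq_one]
    by_contra hne
    obtain ⟨p, hp, hpd⟩ := Nat.exists_prime_and_dvd hne
    have h1 : (p : ℤ) ∣ x₀ + i * M := (Int.natCast_dvd_natCast.2 hpd).trans (Int.gcd_dvd_left _ _)
    have h2 : (p : ℤ) ∣ n := (Int.natCast_dvd_natCast.2 hpd).trans (Int.gcd_dvd_right _ _)
    have h3 : p ∣ n := by exact_mod_cast h2
    by_cases hpS : p ∈ S
    · have h4 : (p : ℤ) ∣ M := by exact_mod_cast Finset.dvd_prod_of_mem (fun p => p) hpS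
      have h5 : (p : ℤ) ∣ 1 := by
        have h6 : (1 : ℤ) = (x₀ + i * M) - i * M - (x₀ - 1) := by ring
        rw [h6]
        exact dvd_sub (dvd_sub h1 (h4.mul_left _)) (h4.trans hx3)
      have h7 : p ∣ 1 := by exact_mod_cast h5
      exact hp.one_lt.ne' (Nat.dvd_one.1 h7)
    · apply hgood
      refine ⟨p, ?_, h1⟩
      rw [hT, Finset.mem_sdiff, Nat.mem_primeFactors]
      exact ⟨⟨hp, h3, hn⟩, hpS⟩

/-- **General bound.** -/
theorem jacobsthal_le {n : ℕ} (hn : n ≠ 0) {S : Finset ℕ} (hS : S ⊆ n.primeFactors)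
    (hσ : ∑ p ∈ n.primeFactors \ S, (1 : ℝ) / p < 1) :
    (jacobsthal n : ℝ) ≤ (∏ p ∈ S, p : ℕ) *
      ((n.primeFactors \ S).card / (1 - ∑ p ∈ n.primeFactors \ S, (1 : ℝ) / p) + 1) := by
  set σ := ∑ p ∈ n.primeFactors \ S, (1 : ℝ) / p with hσdef
  have h1 : 0 < 1 - σ := by linarith
  set Q := ((n.primeFactors \ S).card : ℝ) / (1 - σ) with hQ
  have hQ0 : 0 ≤ Q := by positivity
  set N : ℕ := ⌊Q⌋₊ + 1 with hN
  have hQN : Q < N := by
    rw [hN]
    push_cast
    exact Nat.lt_floor_add_one Q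
  have h2 : (N : ℝ) * σ + (n.primeFactors \ S).card < N := by
    rw [hQ, div_lt_iff₀ h1] at hQN
    linarith
  have hMpos : 0 < ∏ p ∈ S, p :=
    Finset.prod_pos fun p hp => (Nat.prime_of_mem_primeFactors (hS hp)).pos
  have h3 : jacobsthal n ≤ (∏ p ∈ S, p) * N := by
    apply Nat.sInf_le
    exact ⟨Nat.mul_pos hMpos (Nat.succ_pos _), fun a => exists_coprime hn hS h2 a⟩
  have h4 : (N : ℝ) ≤ Q + 1 := by
    rw [hN]
    push_cast
    linarith [Nat.floor_le hQ0]
  calc (jacobsthal n : ℝ) ≤ (((∏ p ∈ S, p) * N : ℕ) : ℝ) := by exact_mod_cast h3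
    _ = (∏ p ∈ S, p : ℕ) * (N : ℝ) := by push_cast; ring
    _ ≤ (∏ p ∈ S, p : ℕ) * (Q + 1) := mul_le_mul_of_nonneg_left h4 (Nat.cast_nonneg _)

/-- **Linear bound.** -/
theorem linear_bound (P : Set ℕ) (hP : Summable (P.indicator fun p : ℕ => (1 : ℝ) / p)) :
    ∃ C : ℝ, ∀ n : ℕ, 1 < n → (∀ p, p.Prime → p ∣ n → p ∈ P) →
      (jacobsthal n : ℝ) ≤ C * n.primeFactors.card := by
  classical
  rw [summable_iff_vanishing_norm] at hP
  obtain ⟨s, hs⟩ := hP (1 / 2) (by norm_num)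
  refine ⟨3 * (∏ p ∈ s.filter fun p => p.Prime, p : ℕ), fun n hn hnP => ?_⟩
  have hn0 : n ≠ 0 := by omega
  set S := n.primeFactors ∩ s with hS
  have hσ : ∑ p ∈ n.primeFactors \ S, (1 : ℝ) / p ≤ 1 / 2 := by
    have h1 : Disjoint (n.primeFactors \ S) s := by
      rw [Finset.disjoint_left]
      intro p hp hps
      rw [Finset.mem_sdiff, hS, Finset.mem_inter] at hp
      exact hp.2 ⟨hp.1, hps⟩
    have h2 := hs _ h1
    have h3 : ∑ p ∈ n.primeFactors \ S, (1 : ℝ) / p =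
        ∑ p ∈ n.primeFactors \ S, P.indicator (fun p : ℕ => (1 : ℝ) / p) p := by
      refine Finset.sum_congr rfl fun p hp => ?_
      rw [Finset.mem_sdiff, Nat.mem_primeFactors] at hp
      rw [Set.indicator_of_mem (hnP p hp.1.1 hp.1.2.1)]
    rw [h3]
    exact (le_abs_self _).trans h2.le
  have hb := jacobsthal_le hn0 (S := S) Finset.inter_subset_left (lt_of_le_of_lt hσ (by norm_num))
  have hcard : ((n.primeFactors \ S).card : ℝ) ≤ n.primeFactors.card := by
    exact_mod_cast Finset.card_le_card Finset.sdiff_subset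
  have hone : (1 : ℝ) ≤ n.primeFactors.card := by
    have : n.primeFactors.Nonempty := Nat.nonempty_primeFactors.2 hn
    exact_mod_cast this.card_pos
  have hM : ((∏ p ∈ S, p : ℕ) : ℝ) ≤ (∏ p ∈ s.filter fun p => p.Prime, p : ℕ) := by
    have h1 : ∏ p ∈ S, p ≤ ∏ p ∈ s.filter fun p => p.Prime, p := by
      apply Finset.prod_le_prod_of_subset_of_one_le'
      · intro p hp
        rw [hS, Finset.mem_inter, Nat.mem_primeFactors] at hp
        exact Finset.mem_filter.2 ⟨hp.2, hp.1.1⟩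
      · intro p hp _
        exact (Finset.mem_filter.1 hp).2.one_lt.le
    exact_mod_cast h1
  have hdiv : ((n.primeFactors \ S).card : ℝ) /
      (1 - ∑ p ∈ n.primeFactors \ S, (1 : ℝ) / p) ≤ 2 * n.primeFactors.card := by
    rw [div_le_iff₀ (by linarith)]
    nlinarith
  calc (jacobsthal n : ℝ) ≤ _ := hb
    _ ≤ (∏ p ∈ s.filter fun p => p.Prime, p : ℕ) * (3 * (n.primeFactors.card : ℝ)) := by
        apply mul_le_mul hM _ _ (Nat.cast_nonneg _)
        · linarith
        · have : 0 < 1 - ∑ p ∈ n.primeFactors \ S, (1 : ℝ) / p := by linarith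
          positivity
    _ = 3 * (∏ p ∈ s.filter fun p => p.Prime, p : ℕ) * n.primeFactors.card := by ring

end Vale.Agent.P013
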