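import Vale.Agent.Lib.P013.Core
import Vale.Agent.Lib.P031.MertBase

/-!
# P013: Jacobsthal's function of integers without medium sized prime factors
-/

namespace Vale.Agent.P013

open Finset Filter Topology
open Vale.Agent.Lib.P031.Mertens

/-- The number of distinct prime divisors. -/
def om (n : ℕ) : ℕ := n.primeFactors.card

theorem mert_upper {m N : ℕ} (hm : 2 ≤ m) (hmN : m ≤ N) :
    mertensS N - mertensS m ≤ Real.log (Real.log N / Real.log m) + 10 / Real.log m := by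
  have hm2 : (2 : ℝ) ≤ m := by exact_mod_cast hm
  have hN2 : (2 : ℝ) ≤ N := by exact_mod_cast le_trans hm hmN
  have hlm : 0 < Real.log m := Real.log_pos (by linarith)
  have hlN : 0 < Real.log N := Real.log_pos (by linarith)
  have hmN' : Real.log m ≤ Real.log N := Real.log_le_log (by linarith) (by exact_mod_cast hmN)
  have h := (abs_le.1 (mertens_second_nat hm hmN)).2
  have h1 := (abs_le.1 (mertens_first (N := N) (by omega))).2
  have h2 := (abs_le.1 (mertens_first (N := m) (by omega))).1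
  rw [Real.log_div hlN.ne' hlm.ne']
  have e1 : (mertensA N - Real.log N) / Real.log N ≤ 3 / Real.log m :=
    calc (mertensA N - Real.log N) / Real.log N ≤ 3 / Real.log N := by gcongr
      _ ≤ 3 / Real.log m := by gcongr
  have e2 : -(3 / Real.log m) ≤ (mertensA m - Real.log m) / Real.log m := by
    rw [← neg_div]; gcongr
  have e3 : 4 * (1 / Real.log m - 1 / Real.log N) ≤ 4 / Real.log m := by
    have : 0 < 1 / Real.log N := by positivity
    have e4 : 4 / Real.log m = 4 * (1 / Real.log m) := by ring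
    rw [e4]; linarith
  have e5 : 10 / Real.log m = 3 / Real.log m + 3 / Real.log m + 4 / Real.log m := by ring
  linarith

/-- sum of reciprocals of at most `k` primes larger than `m` -/
theorem sum_le {m N k : ℕ} (hm : 2 ≤ m) (hmN : m ≤ N) (F : Finset ℕ) (hF : ∀ p ∈ F, p.Prime)
    (hFm : ∀ p ∈ F, m < p) (hk : #F ≤ k) :
    ∑ p ∈ F, 1 / (p : ℝ) ≤
      Real.log (Real.log N / Real.log m) + 10 / Real.log m + (k : ℝ) / N := by
  classical
  have hN : (0 : ℝ) < N := by exact_mod_cast (by omega : 0 < N)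
  rw [← Finset.sum_filter_add_sum_filter_not F (fun p => p ≤ N)]
  refine add_le_add ?_ ?_
  · refine le_trans ?_ (mert_upper hm hmN)
    have hsub : Nat.primesLE m ⊆ Nat.primesLE N := by
      intro p hp
      rw [Nat.mem_primesLE] at *
      exact ⟨hp.1.trans hmN, hp.2⟩
    unfold mertensS
    rw [← Finset.sum_sdiff_eq_sub hsub]
    refine Finset.sum_le_sum_of_subset_of_nonneg ?_ fun p _ _ => by positivity
    intro p hp
    rw [mem_filter] at hp
    rw [Finset.mem_sdiff, Nat.mem_primesLE, Nat.mem_primesLE]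
    exact ⟨⟨hp.2, hF p hp.1⟩, fun h => by have := hFm p hp.1; omega⟩
  · calc ∑ p ∈ F.filter (fun p => ¬ p ≤ N), 1 / (p : ℝ)
        ≤ ∑ p ∈ F.filter (fun p => ¬ p ≤ N), 1 / (N : ℝ) := by
          refine Finset.sum_le_sum fun p hp => ?_
          rw [mem_filter] at hp
          have : (N : ℝ) ≤ p := by exact_mod_cast (by omega : N ≤ p)
          gcongr
      _ = (#(F.filter (fun p => ¬ p ≤ N)) : ℝ) / N := by
          rw [Finset.sum_const, nsmul_eq_mul]; ring
      _ ≤ (k : ℝ) / N := by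
          gcongr
          exact (card_le_card (filter_subset _ _)).trans hk

theorem asym (δ : ℝ) (hδ : Real.exp (-1) < δ) (hδ1 : δ < 1) : ∃ θ : ℝ, θ < 1 ∧ ∃ K : ℕ,
    ∀ k : ℕ, K ≤ k → ∀ F : Finset ℕ, (∀ p ∈ F, p.Prime) → (∀ p ∈ F, (k : ℝ) ^ δ < p) →
      #F ≤ k → ∑ p ∈ F, 1 / (p : ℝ) ≤ θ := by
  have hδ0 : 0 < δ := lt_trans (Real.exp_pos _) hδ
  have hlog : Real.log (1 / δ) < 1 := by
    rw [one_div, Real.log_inv]
    have := Real.log_lt_log (Real.exp_pos _) hδ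
    rw [Real.log_exp] at this
    linarith
  obtain ⟨A, hA⟩ := exists_nat_gt (4 / (1 - Real.log (1 / δ)))
  have hη : 0 < 1 - Real.log (1 / δ) := by linarith
  have hA0 : (0 : ℝ) < A := lt_trans (by positivity) hA
  have hA1 : 1 / (A : ℝ) < (1 - Real.log (1 / δ)) / 4 := by
    rw [div_lt_iff₀ hA0]
    rw [div_lt_iff₀ hη] at hA
    linarith
  have hAn : 0 < A := by exact_mod_cast hA0
  refine ⟨1 - (1 - Real.log (1 / δ)) / 2, by linarith, ?_⟩
  -- the limit
  have hinv : Tendsto (fun L : ℝ => L⁻¹) atTop (𝓝 0) := tendsto_inv_atTop_zero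
  have hlim1 : Tendsto (fun L : ℝ => (1 + Real.log A * L⁻¹) / (δ - Real.log 2 * L⁻¹)) atTop
      (𝓝 (1 / δ)) := by
    have h1 : Tendsto (fun L : ℝ => 1 + Real.log A * L⁻¹) atTop (𝓝 (1 + Real.log A * 0)) :=
      (hinv.const_mul _).const_add _
    have h2 : Tendsto (fun L : ℝ => δ - Real.log 2 * L⁻¹) atTop (𝓝 (δ - Real.log 2 * 0)) :=
      (hinv.const_mul _).const_sub _
    have h3 : Tendsto (fun L : ℝ => (1 + Real.log A * L⁻¹) / (δ - Real.log 2 * L⁻¹)) atTop
      (𝓝 ((1 + Real.log A * 0) / (δ - Real.log 2 * 0))) := h1.div h2 (by simpa using hδ0.ne')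
    simpa using h3
  have hlim2 : Tendsto (fun L : ℝ => Real.log ((1 + Real.log A * L⁻¹) /
      (δ - Real.log 2 * L⁻¹)) + 10 * L⁻¹ / (δ - Real.log 2 * L⁻¹) + 1 / (A : ℝ)) atTop
      (𝓝 (Real.log (1 / δ) + 10 * 0 / (δ - Real.log 2 * 0) + 1 / (A : ℝ))) := by
    refine ((hlim1.log (by positivity)).add ?_).add_const _
    exact (hinv.const_mul _).div ((hinv.const_mul _).const_sub _) (by simpa using hδ0.ne')
  have hev : ∀ᶠ L : ℝ in atTop, Real.log ((1 + Real.log A * L⁻¹) /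
      (δ - Real.log 2 * L⁻¹)) + 10 * L⁻¹ / (δ - Real.log 2 * L⁻¹) + 1 / (A : ℝ) <
      1 - (1 - Real.log (1 / δ)) / 2 := by
    refine hlim2.eventually (Iio_mem_nhds ?_)
    simp only [mul_zero, zero_div, add_zero]
    linarith
  have hlogk : Tendsto (fun k : ℕ => Real.log (k : ℝ)) atTop atTop :=
    Real.tendsto_log_atTop.comp tendsto_natCast_atTop_atTop
  have hev2 := hlogk.eventually hev
  have hev3 := hlogk.eventually (eventually_gt_atTop (2 * Real.log 2 / δ + 1))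
  obtain ⟨K, hK⟩ := eventually_atTop.1 (hev2.and (hev3.and (eventually_ge_atTop 2)))
  refine ⟨K, fun k hk F hF hFk hcard => ?_⟩
  obtain ⟨h1, h2, h3⟩ := hK k hk
  have hk2 : (2 : ℝ) ≤ k := by exact_mod_cast h3
  have hk0 : (0 : ℝ) < k := by linarith
  set L := Real.log (k : ℝ) with hL
  have hl2 : 0 < Real.log 2 := Real.log_pos (by norm_num)
  have hL0 : 0 < L := lt_trans (by positivity) h2
  have hδL : 2 * Real.log 2 < δ * L := by
    have : 2 * Real.log 2 / δ < L := by linarith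
    rw [div_lt_iff₀ hδ0] at this
    linarith
  have hpow : (k : ℝ) ^ δ = Real.exp (δ * L) := by
    rw [Real.rpow_def_of_pos hk0, mul_comm]
  have hpow4 : (4 : ℝ) ≤ (k : ℝ) ^ δ := by
    rw [hpow, show (4 : ℝ) = Real.exp (2 * Real.log 2) by
      rw [mul_comm, Real.exp_mul, Real.exp_log (by norm_num)]; norm_num]
    exact Real.exp_le_exp.2 hδL.le
  set m := ⌊(k : ℝ) ^ δ⌋₊ with hm
  have hm_le : (m : ℝ) ≤ (k : ℝ) ^ δ := Nat.floor_le (by positivity)
  have hm_gt : (k : ℝ) ^ δ < m + 1 := Nat.lt_floor_add_one _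
  have hm2 : 2 ≤ m := Nat.le_floor (by push_cast; linarith)
  have hm2' : (2 : ℝ) ≤ m := by exact_mod_cast hm2
  have hkδ : (k : ℝ) ^ δ ≤ k := by
    calc (k : ℝ) ^ δ ≤ (k : ℝ) ^ (1 : ℝ) :=
          Real.rpow_le_rpow_of_exponent_le (by linarith) hδ1.le
      _ = k := Real.rpow_one _
  have hmk : m ≤ A * k := by
    have h5 : m ≤ k := by exact_mod_cast hm_le.trans hkδ
    nlinarith
  have hsum := sum_le hm2 hmk F hF (fun p hp => by
    have := hFk p hp
    exact_mod_cast lt_of_le_of_lt hm_le this) hcard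
  refine hsum.trans (le_trans ?_ h1.le)
  have hlm : δ * L - Real.log 2 ≤ Real.log m := by
    have h6 : (k : ℝ) ^ δ / 2 ≤ m := by linarith
    have h7 := Real.log_le_log (by positivity) h6
    rw [Real.log_div (by positivity) (by norm_num), Real.log_rpow hk0] at h7
    exact h7
  have hd0 : 0 < δ * L - Real.log 2 := by linarith
  have hlm0 : 0 < Real.log m := lt_of_lt_of_le hd0 hlm
  have hAk : Real.log ((A * k : ℕ) : ℝ) = Real.log A + L := by
    rw [Nat.cast_mul, Real.log_mul hA0.ne' hk0.ne']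
  have hA1' : (1 : ℝ) ≤ A := by exact_mod_cast hAn
  have hlA : 0 ≤ Real.log A := Real.log_nonneg hA1'
  have hLL : L * L⁻¹ = 1 := mul_inv_cancel₀ hL0.ne'
  have hden : 0 < δ - Real.log 2 * L⁻¹ := by
    have : δ - Real.log 2 * L⁻¹ = (δ * L - Real.log 2) * L⁻¹ := by
      rw [sub_mul, mul_assoc, hLL, mul_one]
    rw [this]; positivity
  have t1 : Real.log (Real.log ((A * k : ℕ) : ℝ) / Real.log m) ≤
      Real.log ((1 + Real.log A * L⁻¹) / (δ - Real.log 2 * L⁻¹)) := by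
    rw [hAk]
    refine Real.log_le_log (by positivity) ?_
    calc (Real.log A + L) / Real.log m ≤ (Real.log A + L) / (δ * L - Real.log 2) := by gcongr
      _ = (1 + Real.log A * L⁻¹) / (δ - Real.log 2 * L⁻¹) := by
          rw [div_eq_div_iff hd0.ne' hden.ne']
          field_simp
          ring
  have t2 : 10 / Real.log m ≤ 10 * L⁻¹ / (δ - Real.log 2 * L⁻¹) := by
    calc 10 / Real.log m ≤ 10 / (δ * L - Real.log 2) := by gcongr
      _ = 10 * L⁻¹ / (δ - Real.log 2 * L⁻¹) := by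
          rw [div_eq_div_iff hd0.ne' hden.ne']
          field_simp
  have t3 : (k : ℝ) / ((A * k : ℕ) : ℝ) = 1 / A := by
    rw [Nat.cast_mul]
    field_simp
  rw [t3]
  linarith

theorem prod_le_four (D : Finset ℕ) (hD : ∀ p ∈ D, p.Prime) (t : ℕ) (ht : ∀ p ∈ D, p ≤ t) :
    ∏ p ∈ D, p ≤ 4 ^ t := by
  refine le_trans ?_ (primorial_le_four_pow t)
  unfold primorial
  refine Finset.prod_le_prod_of_subset_of_one_le' ?_ fun p hp _ => ?_
  · intro p hp
    rw [mem_filter, mem_range]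
    exact ⟨Nat.lt_succ_of_le (ht p hp), hD p hp⟩
  · rw [mem_filter] at hp
    exact hp.2.one_lt.le

theorem om_pos {n : ℕ} (hn : 1 < n) : 1 ≤ om n :=
  Finset.card_pos.2 (Nat.nonempty_primeFactors.2 hn)

/-- the general bound -/
theorem jac_gen {n : ℕ} (hn : 1 < n) (D : Finset ℕ) (hD : D ⊆ n.primeFactors) (θ : ℝ) (hθ : θ < 1)
    (hS : ∑ p ∈ n.primeFactors \ D, 1 / (p : ℝ) ≤ θ) :
    (jac n : ℝ) ≤ (3 / (1 - θ) + 1) * om n * (∏ p ∈ D, p : ℕ) := by
  have hk := om_pos hn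
  have hk' : (1 : ℝ) ≤ om n := by exact_mod_cast hk
  have h1 : 0 < 1 - θ := by linarith
  set m := ⌊3 * (om n : ℝ) / (1 - θ)⌋₊ + 1 with hm
  have hm1 : 3 * (om n : ℝ) / (1 - θ) < m := by
    rw [hm]; push_cast; exact Nat.lt_floor_add_one _
  have hm2 : (m : ℝ) ≤ 3 * (om n : ℝ) / (1 - θ) + 1 := by
    rw [hm]; push_cast
    have := Nat.floor_le (show 0 ≤ 3 * (om n : ℝ) / (1 - θ) by positivity)
    linarith
  have hcard : (#(n.primeFactors \ D) : ℝ) ≤ om n := by
    exact_mod_cast card_le_card sdiff_subset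
  have h2 := jac_le n (by omega) D hD m (by omega) (by
    rw [div_lt_iff₀ h1] at hm1
    calc 3 * (#(n.primeFactors \ D) : ℝ) ≤ 3 * om n := by linarith
      _ < m * (1 - θ) := hm1
      _ ≤ _ := by
          apply mul_le_mul_of_nonneg_left _ (Nat.cast_nonneg _)
          linarith)
  have h3 : (jac n : ℝ) ≤ (m : ℝ) * (∏ p ∈ D, p : ℕ) := by exact_mod_cast h2
  refine h3.trans (mul_le_mul_of_nonneg_right ?_ (Nat.cast_nonneg _))
  calc (m : ℝ) ≤ 3 * (om n : ℝ) / (1 - θ) + 1 := hm2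
    _ ≤ 3 * (om n : ℝ) / (1 - θ) + om n := by linarith
    _ = _ := by ring

theorem sum_half {n : ℕ} (D : Finset ℕ) (h : ∀ p ∈ n.primeFactors \ D, 2 * om n ≤ p) :
    ∑ p ∈ n.primeFactors \ D, 1 / (p : ℝ) ≤ 1 / 2 := by
  rcases Nat.eq_zero_or_pos (om n) with h0 | h0
  · have : n.primeFactors = ∅ := Finset.card_eq_zero.1 h0
    rw [this]; simp
  have hk : (0 : ℝ) < om n := by exact_mod_cast h0
  calc ∑ p ∈ n.primeFactors \ D, 1 / (p : ℝ)
      ≤ ∑ p ∈ n.primeFactors \ D, 1 / (2 * om n : ℝ) := by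
        refine Finset.sum_le_sum fun p hp => ?_
        have : (2 * om n : ℝ) ≤ p := by exact_mod_cast h p hp
        gcongr
    _ = (#(n.primeFactors \ D) : ℝ) * (1 / (2 * om n : ℝ)) := by
        rw [Finset.sum_const, nsmul_eq_mul]
    _ ≤ (om n : ℝ) * (1 / (2 * om n : ℝ)) := by
        gcongr
        exact card_le_card sdiff_subset
    _ = 1 / 2 := by field_simp

theorem jac_bdd {n : ℕ} (hn : 1 < n) : (jac n : ℝ) ≤ 7 * om n * 4 ^ (2 * om n) := by
  classical
  have h1 := jac_gen hn (n.primeFactors.filter fun p : ℕ => p ≤ 2 * om n) (filter_subset _ _) (1 / 2)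
    (by norm_num) (sum_half _ (by
      intro p hp
      rw [Finset.mem_sdiff, mem_filter] at hp
      by_contra h
      exact hp.2 ⟨hp.1, by omega⟩))
  have h2 := prod_le_four (n.primeFactors.filter fun p : ℕ => p ≤ 2 * om n)
    (fun p hp => Nat.prime_of_mem_primeFactors (mem_filter.1 hp).1) (2 * om n)
    (fun p hp => (mem_filter.1 hp).2)
  have h3 : ((∏ p ∈ n.primeFactors.filter fun p : ℕ => p ≤ 2 * om n, p : ℕ) : ℝ) ≤
    4 ^ (2 * om n) := by exact_mod_cast h2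
  calc (jac n : ℝ) ≤ _ := h1
    _ ≤ (3 / (1 - 1 / 2) + 1) * om n * 4 ^ (2 * om n) := by gcongr
    _ = _ := by norm_num

theorem star (δ : ℝ) (hδ : Real.exp (-1) < δ) : ∃ C : ℝ, 0 < C ∧ ∀ n : ℕ, 1 < n →
    (jac n : ℝ) ≤ C * om n *
      (∏ p ∈ n.primeFactors.filter (fun p : ℕ => (p : ℝ) ≤ (om n : ℝ) ^ δ), p : ℕ) := by
  classical
  have he : Real.exp (-1) < 1 / 2 := lt_trans Real.exp_neg_one_lt_d9 (by norm_num)
  obtain ⟨θ, hθ, K, hK⟩ := asym (min δ (1 / 2)) (lt_min hδ he)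
    (lt_of_le_of_lt (min_le_right _ _) (by norm_num))
  have h1 : 0 < 1 - θ := by linarith
  refine ⟨(3 / (1 - θ) + 1) + 7 * 4 ^ (2 * K), by positivity, fun n hn => ?_⟩
  have hk := om_pos hn
  have hk' : (1 : ℝ) ≤ om n := by exact_mod_cast hk
  set D := n.primeFactors.filter (fun p : ℕ => (p : ℝ) ≤ (om n : ℝ) ^ δ) with hD
  have hDpos : (1 : ℝ) ≤ (∏ p ∈ D, p : ℕ) := by
    have : 0 < ∏ p ∈ D, p := Finset.prod_pos fun p hp =>
      (Nat.prime_of_mem_primeFactors (mem_filter.1 hp).1).pos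
    exact_mod_cast this
  rcases le_or_gt K (om n) with hKn | hKn
  · have h2 := hK (om n) hKn (n.primeFactors \ D)
      (fun p hp => Nat.prime_of_mem_primeFactors (Finset.mem_sdiff.1 hp).1)
      (fun p hp => by
        rw [Finset.mem_sdiff, hD, mem_filter] at hp
        have h3 : (om n : ℝ) ^ δ < p := by
          by_contra h
          exact hp.2 ⟨hp.1, not_lt.1 h⟩
        refine lt_of_le_of_lt ?_ h3
        exact Real.rpow_le_rpow_of_exponent_le hk' (min_le_left _ _))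
      (card_le_card sdiff_subset)
    have h4 := jac_gen hn D (filter_subset _ _) θ hθ h2
    have h5 : (0 : ℝ) ≤ 7 * 4 ^ (2 * K) := by positivity
    refine h4.trans (mul_le_mul_of_nonneg_right (mul_le_mul_of_nonneg_right ?_
      (Nat.cast_nonneg _)) (Nat.cast_nonneg _))
    linarith
  · have h2 := jac_bdd hn
    have h3 : (4 : ℝ) ^ (2 * om n) ≤ 4 ^ (2 * K) :=
      pow_le_pow_right₀ (by norm_num) (by omega)
    calc (jac n : ℝ) ≤ 7 * om n * 4 ^ (2 * om n) := h2
      _ ≤ 7 * om n * 4 ^ (2 * K) := by gcongr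
      _ = 7 * 4 ^ (2 * K) * om n * 1 := by ring
      _ ≤ ((3 / (1 - θ) + 1) + 7 * 4 ^ (2 * K)) * om n * (∏ p ∈ D, p : ℕ) := by
          gcongr
          have : (0 : ℝ) ≤ 3 / (1 - θ) + 1 := by positivity
          linarith

theorem medium (ε δ : ℝ) (hε : 0 < ε) (hδ : Real.exp (-1) < δ) : ∃ c C : ℝ, 0 < c ∧ 0 < C ∧
    ∀ n : ℕ, 1 < n → (∀ p : ℕ, p.Prime → p ∣ n → (p : ℝ) ≤ c * Real.log (om n) ∨
      (om n : ℝ) ^ δ < p) → (jac n : ℝ) ≤ C * (om n : ℝ) ^ (1 + ε) := by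
  classical
  obtain ⟨C, hC, h⟩ := star δ hδ
  have hl4 : 0 < Real.log 4 := Real.log_pos (by norm_num)
  refine ⟨ε / Real.log 4, C, by positivity, hC, fun n hn hp => ?_⟩
  have hk := om_pos hn
  have hk' : (1 : ℝ) ≤ om n := by exact_mod_cast hk
  have hk0 : (0 : ℝ) < om n := by linarith
  have hlk : 0 ≤ Real.log (om n) := Real.log_nonneg hk'
  refine (h n hn).trans ?_
  have h2 := prod_le_four (n.primeFactors.filter (fun p : ℕ => (p : ℝ) ≤ (om n : ℝ) ^ δ))
    (fun p hp => Nat.prime_of_mem_primeFactors (mem_filter.1 hp).1)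
    ⌊ε / Real.log 4 * Real.log (om n)⌋₊ (fun p hp' => by
      rw [mem_filter] at hp'
      rcases hp p (Nat.prime_of_mem_primeFactors hp'.1) (Nat.dvd_of_mem_primeFactors hp'.1) with
        h3 | h3
      · exact Nat.le_floor h3
      · exact absurd hp'.2 (not_le.2 h3))
  have h3 : ((∏ p ∈ n.primeFactors.filter (fun p : ℕ => (p : ℝ) ≤ (om n : ℝ) ^ δ), p : ℕ) : ℝ) ≤
      (om n : ℝ) ^ ε := by
    calc ((∏ p ∈ n.primeFactors.filter (fun p : ℕ => (p : ℝ) ≤ (om n : ℝ) ^ δ), p : ℕ) : ℝ)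
        ≤ ((4 ^ ⌊ε / Real.log 4 * Real.log (om n)⌋₊ : ℕ) : ℝ) := by exact_mod_cast h2
      _ = (4 : ℝ) ^ ((⌊ε / Real.log 4 * Real.log (om n)⌋₊ : ℕ) : ℝ) := by
          rw [Real.rpow_natCast]; push_cast; rfl
      _ ≤ (4 : ℝ) ^ (ε / Real.log 4 * Real.log (om n)) :=
          Real.rpow_le_rpow_of_exponent_le (by norm_num) (Nat.floor_le (by positivity))
      _ = (om n : ℝ) ^ ε := by
          rw [Real.rpow_def_of_pos (by norm_num), Real.rpow_def_of_pos hk0]
          congr 1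
          field_simp
  calc C * om n * _ ≤ C * om n * (om n : ℝ) ^ ε := by gcongr
    _ = C * (om n : ℝ) ^ (1 + ε) := by
        rw [Real.rpow_add hk0, Real.rpow_one]; ring

theorem sparse (S : Set ℕ) (hS : ∀ p ∈ S, p.Prime)
    (hsum : Summable (fun p : S => 1 / ((p : ℕ) : ℝ))) : ∃ C : ℝ, 0 < C ∧ ∀ n : ℕ, 1 < n →
    (∀ p : ℕ, p.Prime → p ∣ n → p ∈ S) → (jac n : ℝ) ≤ C * om n := by
  classical
  obtain ⟨F, hF⟩ := hsum.vanishing (Iio_mem_nhds (show (0 : ℝ) < 1 / 2 by norm_num))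
  have hFpos : 0 < ∏ p ∈ F.image (fun p : S => (p : ℕ)), p := Finset.prod_pos fun p hp => by
    rw [mem_image] at hp
    obtain ⟨q, _, rfl⟩ := hp
    exact (hS q q.2).pos
  refine ⟨7 * (∏ p ∈ F.image (fun p : S => (p : ℕ)), p : ℕ), by
    have : (0 : ℝ) < (∏ p ∈ F.image (fun p : S => (p : ℕ)), p : ℕ) := by exact_mod_cast hFpos
    positivity, fun n hn hp => ?_⟩
  have hmem : ∀ p ∈ n.primeFactors, p ∈ S := fun p hp' =>
    hp p (Nat.prime_of_mem_primeFactors hp') (Nat.dvd_of_mem_primeFactors hp')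
  set D := n.primeFactors.filter (fun p => p ∈ F.image (fun p : S => (p : ℕ))) with hD
  have hsum' : ∑ p ∈ n.primeFactors \ D, 1 / (p : ℝ) ≤ 1 / 2 := by
    have h1 := hF ((n.primeFactors \ D).subtype (· ∈ S)) (by
      rw [Finset.disjoint_left]
      intro q hq hqF
      rw [mem_subtype, Finset.mem_sdiff, hD, mem_filter] at hq
      exact hq.2 ⟨hq.1, mem_image_of_mem _ hqF⟩)
    rw [Set.mem_Iio] at h1
    rw [Finset.sum_subtype_of_mem (fun p : ℕ => 1 / (p : ℝ))
      (fun p hp' => hmem p (Finset.mem_sdiff.1 hp').1)] at h1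
    exact h1.le
  have h2 := jac_gen hn D (filter_subset _ _) (1 / 2) (by norm_num) hsum'
  have h3 : ∏ p ∈ D, p ≤ ∏ p ∈ F.image (fun p : S => (p : ℕ)), p := by
    refine Finset.prod_le_prod_of_subset_of_one_le' ?_ fun p hp' _ => ?_
    · intro p hp'
      rw [hD, mem_filter] at hp'
      exact hp'.2
    · rw [mem_image] at hp'
      obtain ⟨q, _, rfl⟩ := hp'
      exact (hS q q.2).one_lt.le
  have h4 : ((∏ p ∈ D, p : ℕ) : ℝ) ≤ (∏ p ∈ F.image (fun p : S => (p : ℕ)), p : ℕ) := by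
    exact_mod_cast h3
  calc (jac n : ℝ) ≤ _ := h2
    _ ≤ (3 / (1 - 1 / 2) + 1) * om n * (∏ p ∈ F.image (fun p : S => (p : ℕ)), p : ℕ) := by gcongr
    _ = _ := by ring

end Vale.Agent.P013
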